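import Crest.Agent.X212.Sw87.MoL
import Crest.Agent.X212.Pen22.Gl

/-!
# Row 212, GEO engine, E-LR (helper83): the embeddings of the pieces
-/

set_option autoImplicit false
set_option linter.unusedSectionVars false
noncomputable section
open scoped Manifold ContDiff Topology
open Set Function Filter

namespace Crest.Agent.X212.Lr83
open Geo28 Sw87.Mo Pen22
open Bor5.T (O3)

/-- a reparametrisation of time which is the identity near the complement of `J` -/
structure Rp (J : Set ℝ) (f : ℝ ≃ₜ ℝ) (W : Set ℝ) : Prop where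
  op : IsOpen W
  cov : ∀ t ∉ J, t ∈ W
  id : ∀ t ∈ W, f t = t
  sm : ContDiff ℝ ∞ f
  sm' : ContDiff ℝ ∞ f.symm

variable {A : O3} {X X₁ : M4} {J W : Set ℝ} {f : ℝ ≃ₜ ℝ}

theorem Rp.symm (h : Rp J f W) : Rp J f.symm W :=
  ⟨h.op, h.cov, fun t ht => f.symm_apply_eq.2 (h.id t ht).symm, h.sm', h.sm⟩

theorem Rp.mem (h : Rp J f W) {t : ℝ} (ht : t ∈ J) : f t ∈ J :=
  of_not_not fun n => n ((f.injective (h.id _ (h.cov _ n))).symm ▸ ht)

open Classical in
/-- the reparametrisation of a chart -/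
def cpf (k : Nc A X J) (f : ℝ → ℝ) (x : X.M) : X.M :=
  if x ∈ k.k.target then k.k ((k.k.symm x).1, f (k.tm x)) else x

variable (k : Nc A X J)

theorem cpf_k (f : ℝ → ℝ) (y : A.Y.M) {t : ℝ} (ht : t ∈ J) : cpf k f (k.k (y, t)) = k.k (y, f t) := by
  have m : (y, t) ∈ k.k.source := k.src.ge ⟨trivial, ht⟩
  rw [cpf, if_pos (k.k.map_source m), tm_k k y ht]
  exact congrArg (fun z : A.Y.M × ℝ => k.k (z.1, f t)) (k.k.left_inv m)

theorem cpf_off (f : ℝ → ℝ) {x : X.M} (hx : k.tm x ∉ J) : cpf k f x = x := if_neg fun m => hx (k.tgt.le m)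

theorem cpf_id {f : ℝ → ℝ} {x : X.M} (h : f (k.tm x) = k.tm x) : cpf k f x = x := by
  by_cases hx : k.tm x ∈ J
  · obtain ⟨y, hy⟩ := exists_k k hx
    rw [← hy, cpf_k k f y hx, h]
  · exact cpf_off k f hx

variable (h : Rp J f W)
include h

theorem tm_cpf (x : X.M) : k.tm (cpf k f x) = f (k.tm x) := by
  by_cases hx : k.tm x ∈ J
  · obtain ⟨y, hy⟩ := exists_k k hx
    conv_lhs => rw [← hy, cpf_k k f y hx, tm_k k y (h.mem hx)]
  · rw [cpf_off k f hx, h.id _ (h.cov _ hx)]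

theorem cpf_inv (x : X.M) : cpf k f.symm (cpf k f x) = x := by
  by_cases hx : k.tm x ∈ J
  · obtain ⟨y, hy⟩ := exists_k k hx
    rw [← hy, cpf_k k f y hx, cpf_k k _ y (h.mem hx), f.symm_apply_apply]
  · rw [cpf_off k f hx, cpf_off k _ hx]

theorem cpf_sm : ContMDiff X.I X.I ∞ (cpf k f) := fun x => by
  by_cases hx : k.tm x ∈ J
  · have m := k.k.open_target.mem_nhds (k.tgt.ge hx)
    have s : ∀ y ∈ k.k.target, (k.k.symm y).2 = k.tm y := fun y hy =>
      (k.tmk _ (k.k.map_target hy)).symm.trans (congrArg k.tm (k.k.right_inv hy))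
    refine ((k.k.contMDiffOn_toFun.comp (t := k.k.source) ((contMDiff_id.prodMap h.sm.contMDiff).comp_contMDiffOn
      k.k.contMDiffOn_invFun) fun y hy => k.src.ge ⟨trivial, h.mem ((s y hy).symm ▸ k.tgt.le hy)⟩).contMDiffAt
        m).congr_of_eventuallyEq (eventually_of_mem m fun y hy => ?_)
    rw [cpf, if_pos hy, ← s y hy]; rfl
  · exact contMDiffAt_id.congr_of_eventuallyEq (eventually_of_mem
      ((h.op.preimage k.cont).mem_nhds (h.cov _ hx)) fun y hy => cpf_id k (h.id _ hy))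

theorem exists_emb (g : PD X X₁) {S : Set ℝ} (hS : IsOpen S) {T : Set X₁.M}
    (h1 : ∀ x, k.tm x ∈ S → x ∈ g.source) (h2 : T ⊆ g.target) (h3 : ∀ x ∈ g.source, g x ∈ T ↔ k.tm x ∈ S) :
    ∃ l : OpenPartialHomeomorph X.M X₁.M, l.source = k.tm ⁻¹' (f ⁻¹' S) ∧ l.target = T ∧
      (∀ x, l x = g (cpf k f x)) ∧ ContMDiffOn X.I X₁.I ∞ l l.source ∧ ContMDiffOn X₁.I X.I ∞ l.symm l.target := by
  let H : X.M ≃ₜ X.M := ⟨⟨cpf k f, cpf k f.symm, cpf_inv k h, cpf_inv k h.symm⟩, (cpf_sm k h).continuous,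
    (cpf_sm k h.symm).continuous⟩
  have e : ∀ y, f (k.tm (cpf k f.symm (g.symm y))) = k.tm (g.symm y) := fun y => by
    rw [tm_cpf k h.symm, f.apply_symm_apply]
  refine ⟨(H.transOpenPartialHomeomorph g.toOpenPartialHomeomorph).restrOpen (k.tm ⁻¹' (f ⁻¹' S))
    ((hS.preimage f.continuous).preimage k.cont), inter_eq_right.2 fun x hx => h1 _ ((tm_cpf k h x).symm ▸ hx),
    Subset.antisymm (fun y hy => ?_) fun y hy => ⟨h2 hy, mem_of_eq_of_mem (s := S) (e y) ?_⟩, fun _ => rfl,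
    g.contMDiffOn_toFun.comp (cpf_sm k h).contMDiffOn fun x hx => hx.1,
    (cpf_sm k h.symm).comp_contMDiffOn (g.contMDiffOn_invFun.mono inter_subset_left)⟩
  · exact g.right_inv hy.1 ▸ (h3 _ (g.map_target hy.1)).2 (mem_of_eq_of_mem (s := S) (e y).symm hy.2)
  · exact (h3 _ (g.map_target (h2 hy))).1 ((g.right_inv (h2 hy)).symm ▸ hy)

omit h

/-- the compression of the incoming end -/
def fR (v : ℝ) : ℝ ≃ₜ ℝ :=
  ((Homeomorph.addRight (len v + 2)).trans (stH v).symm).trans (Homeomorph.subRight 4)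

theorem symm_lo (v : ℝ) {t : ℝ} (ht : t ≤ 3 / 2) : (stH v).symm t = t := by
  conv_lhs => rw [← st_lo v ht, symm_st]

theorem fR_hi (v : ℝ) {t : ℝ} (ht : -(3 / 2) ≤ t) : (stH v).symm (t + len v + 2) - 4 = t := by
  rw [show t + len v + 2 = st v (t + 4) by rw [st_hi v (by linarith)]; ring, symm_st]; ring

theorem fR_apply (v t : ℝ) : fR v t = (stH v).symm (t + len v + 2) - 4 := by rw [add_assoc]; rfl

theorem rpL (v : ℝ) : Rp (Ioi 0) (stH v).symm (Iio (3 / 2)) :=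
  ⟨isOpen_Iio, fun t ht => (not_lt.1 ht : t ≤ 0).trans_lt (by norm_num), fun _ ht => symm_lo v ht.le, stH_sm v, st_sm v⟩

theorem rpR (v : ℝ) : Rp (Iio 0) (fR v) (Ioi (-(3 / 2))) :=
  ⟨isOpen_Ioi, fun t ht => lt_of_lt_of_le (by norm_num) (not_lt.1 ht : 0 ≤ t),
    fun t ht => (fR_apply v t).trans (fR_hi v ht.le),
    ((stH_sm v).comp (contDiff_id.add contDiff_const)).sub contDiff_const,
    ((st_sm v).comp (contDiff_id.add contDiff_const)).add contDiff_const⟩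

theorem symm_lt (v t : ℝ) : (stH v).symm t < 3 ↔ t < len v + 1 := by
  rw [← (st_mono v).lt_iff_lt, st_symm, st_hi v (by norm_num)]
  constructor <;> intro <;> linarith

theorem lt_symm (v t : ℝ) : 1 < (stH v).symm t ↔ 1 < t := by
  rw [← (st_mono v).lt_iff_lt, st_symm, st_lo v (by norm_num)]

variable {κ : Type} [Fintype κ] [DecidableEq κ] {X₂ : M4} {τ : MT κ X} {τ₁ : MT κ X₁} {τ₂ : MT κ X₂}
  (γ : TG τ τ₁ τ₂)

theorem cp_l (v : ℝ) : (τ₁.nb γ.j₁).cp v = cpf γ.k₁ (stH v).symm := by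
  rw [γ.h₁]; funext x; unfold NB.cp cpf; rw [if_pos rfl]; rfl

theorem cp_r (v : ℝ) : (τ₂.nb γ.j₂).cp v = cpf γ.k₂ (fR v) := by
  rw [γ.h₂]; funext x; unfold NB.cp cpf; rw [if_neg (show some false ≠ some true by simp), fR_apply]; rfl

/-- **E-LR** -/
theorem lrStmt : LrStmt κ := by
  intro X X₁ X₂ τ τ₁ τ₂ γ
  choose l a1 a2 a3 a4 using fun v => exists_emb γ.k₁ (rpL v) γ.g.l (S := Iio 3) isOpen_Iio
    (T := γ.g.n.tm ⁻¹' Iio 3) (fun x hx => (mem_l γ.g).2 (hx.out.trans (by norm_num)))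
    (fun x hx => (mem_lt γ.g).2 (hx.out.trans (by norm_num))) fun x hx => not_iff_not.1 (by
      simp only [mem_preimage, mem_Iio, not_lt]
      exact ⟨fun h => tm_l γ.g hx (.inr (by linarith)) ▸ h, fun h => (tm_l γ.g hx (.inl (by linarith))).symm ▸ h⟩)
  choose r b1 b2 b3 b4 using fun v => exists_emb γ.k₂ (rpR v) γ.g.r (S := Ioi (-3)) isOpen_Ioi
    (T := γ.g.n.tm ⁻¹' Ioi 1) (fun x hx => (mem_r γ.g).2 (lt_trans (by norm_num) hx.out))
    (fun x hx => (mem_rt γ.g).2 (one_pos.trans hx.out)) fun x hx => not_iff_not.1 (by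
      simp only [mem_preimage, mem_Ioi, not_lt]
      exact ⟨fun h => by linarith [tm_r γ.g hx (.inr (by linarith))],
        fun h => by linarith [tm_r γ.g hx (.inl (by linarith))]⟩)
  refine ⟨⟨l, r, fun v => (a1 v).trans (congrArg _ (Set.ext (symm_lt v))),
    fun v => (b1 v).trans (congrArg _ (Set.ext fun t => ?_)), a2, b2, fun v x _ => cp_l γ v ▸ a3 v x,
    fun v x _ => cp_r γ v ▸ b3 v x, fun v x hx => by rw [a3, cpf_id _ (symm_lo v hx)],
    fun v x hx => by rw [b3, cpf_id _ ((fR_apply v _).trans (fR_hi v hx))], a4, b4⟩⟩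
  rw [mem_preimage, mem_Ioi, mem_Ioi, fR_apply, lt_sub_iff_add_lt, show (-3 + 4 : ℝ) = 1 by norm_num, lt_symm]
  constructor <;> intro <;> linarith

end Crest.Agent.X212.Lr83
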