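import Crest.Agent.X212.Lr83.Lr
import Crest.Agent.X212.M.Api

/-!
# Row 212, GEO engine, E-WL (helper83), part 1: literal correspondence point by point
-/

set_option autoImplicit false
set_option linter.unusedSectionVars false
noncomputable section
open scoped Manifold ContDiff Topology
open Set Function Filter

namespace Crest.Agent.X212.Lr83
open An Cyf70 Sw Flo2 Geo28 Met55 Sw87.Mo Pen22
open M (Mf)

theorem sum_rel {N N₁ W : Type} [Fintype N] [Fintype N₁] [AddCommMonoid W] (R : N₁ → N → Prop) {f : N → W}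
    {f₁ : N₁ → W} (inj : ∀ i i' j j', R i i' → R j j' → (i = j ↔ i' = j')) (e : ∀ j i, R j i → f i = f₁ j)
    (z : ∀ i, (∀ j, ¬R j i) → f i = 0) (z₁ : ∀ j, (∀ i, ¬R j i) → f₁ j = 0) : ∑ i, f i = ∑ j, f₁ j := by
  classical
  have h1 : ∀ i, f i = ∑ j, if R j i then f₁ j else 0 := fun i => by
    by_cases h : ∃ j, R j i
    · obtain ⟨j, hj⟩ := h
      rw [Finset.sum_eq_single j (fun j' _ n => if_neg fun h => n ((inj _ _ _ _ h hj).2 rfl)) (by simp), if_pos hj,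
        e j i hj]
    · rw [z i (not_exists.1 h), Finset.sum_eq_zero fun j _ => if_neg (not_exists.1 h j)]
  have h2 : ∀ j, (∑ i, if R j i then f₁ j else 0) = f₁ j := fun j => by
    by_cases h : ∃ i, R j i
    · obtain ⟨i, hi⟩ := h
      rw [Finset.sum_eq_single i (fun i' _ n => if_neg fun h => n ((inj _ _ _ _ h hi).1 rfl)) (by simp), if_pos hi]
    · rw [Finset.sum_eq_zero fun i _ => if_neg (not_exists.1 h i), z₁ j (not_exists.1 h)]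
  rw [Finset.sum_congr rfl fun i _ => h1 i, Finset.sum_comm, Finset.sum_congr rfl fun j _ => h2 j]

section pt
variable {κ lam ν : Type} [Fintype κ] [Fintype lam] [Fintype ν] [DecidableEq ν] {X X₁ : Mf 4} {n n₁ : ℕ}

/-- literal correspondence at a point -/
structure PL (b₁ : Bg X₁.I X₁.M κ lam ν n₁) (b : Bg X.I X.M κ lam ν n) (l : X₁.M → X.M) (x : X₁.M) : Prop where
  e : ∀ a, mfderiv X₁.I X.I l x (b₁.F.e a x) = b.F.e a (l x)
  P : ∀ i j, b.B.P i j (l x) = b₁.B.P i j x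
  o : ∀ i j k m, b.B.o i j k m (l x) = b₁.B.o i j k m x
  p : b.m.p (l x) = b₁.m.p x
  ρ : ∀ i, b.m.ρ i (l x) = b₁.m.ρ i x
  ms : b.ms (l x) = b₁.ms x
  om : b.om (l x) = b₁.om x

theorem sh_e (e : En3 κ lam ν) (δ : ℝ) (a : Option κ) (x : e.Y.M × ℝ) :
    mfderiv (IC e.Y.I) (IC e.Y.I) (fun w : e.Y.M × ℝ => (w.1, w.2 + δ)) x (ce e.D.F.e a x) =
      ce e.D.F.e a (x.1, x.2 + δ) := by
  have g := ((hasDerivAt_id x.2).add_const δ).hasFDerivAt.hasMFDerivAt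
  have h := ((hasMFDerivAt_id (I := e.Y.I) x.1).prodMap g).mfderiv
  rw [mfderiv_id, g.mfderiv] at h
  refine (congrArg (· (ce e.D.F.e a x)) h).trans ?_
  cases a
  exacts [Prod.ext rfl (one_smul ℝ (1 : ℝ)), Prod.ext rfl (zero_smul ℝ (1 : ℝ))]

theorem pl_nk {e : En3 κ lam ν} {b₁ : Bg X₁.I X₁.M κ lam ν n₁} {b : Bg X.I X.M κ lam ν n} (K₁ : Nk e b₁)
    (K : Nk e b) {l : X₁.M → X.M} {δ : ℝ} {z : e.Y.M × ℝ} (h₁ : z ∈ K₁.ψ.source)
    (h : (z.1, z.2 + δ) ∈ K.ψ.source) (hl : MDifferentiableAt X₁.I X.I l (K₁.ψ z))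
    (ev : ∀ᶠ w in 𝓝 z, l (K₁.ψ w) = K.ψ (w.1, w.2 + δ)) :
    PL b₁ b l (K₁.ψ z) ∧ ∀ a, b.A a (l (K₁.ψ z)) = b₁.A a (K₁.ψ z) := by
  have e0 := ev.self_of_nhds
  refine ⟨⟨fun a => ?_, fun i j => ?_, fun i j k m => ?_, ?_, fun i => ?_, ?_, ?_⟩, fun a => ?_⟩
  · have h1 := mfderiv_comp_apply z hl ((K₁.iso.sm.contMDiffAt (K₁.ψ.open_source.mem_nhds h₁)).mdifferentiableAt (by simp))
       (ce e.D.F.e a z)
    have h2 := mfderiv_comp_apply (f := fun w : e.Y.M × ℝ => (w.1, w.2 + δ)) z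
      ((K.iso.sm.contMDiffAt (K.ψ.open_source.mem_nhds h)).mdifferentiableAt (by simp))
      ((contMDiff_fst.prodMk (contMDiff_snd.add contMDiff_const) : ContMDiff (IC e.Y.I) (IC e.Y.I) ∞ _) z
        |>.mdifferentiableAt (by simp)) (ce e.D.F.e a z)
    rw [sh_e, ← EventuallyEq.mfderiv_eq (f₁ := l ∘ K₁.ψ) 
      (f := K.ψ ∘ fun w : e.Y.M × ℝ => (w.1, w.2 + δ)) ev] at h2
    rw [e0]
    exact (congrArg _ (K₁.iso.e a z h₁).symm).trans (h1.symm.trans (h2.trans (K.iso.e a _ h)))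
  · rw [e0, K.P i j _ h, K₁.P i j _ h₁]
    cases i <;> cases j <;> rfl
  · rw [e0, K.o i j k m _ h, K₁.o i j k m _ h₁]; rfl
  · rw [e0, K.hp _ h, K₁.hp _ h₁]
  · rw [e0, K.hρ i _ h, K₁.hρ i _ h₁]
  · rw [e0, K.hms _ h, K₁.hms _ h₁]; rfl
  · rw [e0, K.hom _ h, K₁.hom _ h₁]
  · rw [e0, K.hA a _ h, K₁.hA a _ h₁]
    cases a <;> rfl

end pt

variable {κ : Type} [Fintype κ] [DecidableEq κ] {μ : Type} [Fintype μ] [DecidableEq μ]
  {X X₁ : M4} {k k₁ : ℕ} {τ : MT κ X} {τ₁ : MT κ X₁} {β : MB τ k} {β₁ : MB τ₁ k₁} (c : MC μ β) (c₁ : MC μ β₁)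
  {t : Tk k} {t₁ : Tk k₁}

theorem lit_of {l : OpenPartialHomeomorph X₁.M X.M} (sm : ContMDiffOn X₁.I X.I ∞ l l.source)
    (sm' : ContMDiffOn X.I X₁.I ∞ l.symm l.target) (h : ∀ x ∈ l.source, PL (c₁.P t₁).bg (c.P t).bg l x ∧
      ((∀ a, c.al (β.v t) a (l x) = c₁.al (β₁.v t₁) a x) ∨ ∀ a, (c.P t).bg.A a (l x) = (c₁.P t₁).bg.A a x)) :
    (c₁.P t₁).bg.Lit (c.P t).bg l :=
  have iso : An.Iso (β₁.F t₁).toPre (β.F t).toPre l := Int54.iso_of_vol (X.X.dim.trans X₁.X.dim.symm)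
    (rFr_vol _ _) (rFr_vol _ _) sm sm' fun a x hx => (h x hx).1.e a
  ⟨iso, fun i j x hx => (h x hx).1.P i j, fun i j k m x hx => (h x hx).1.o i j k m, rfl, rfl,
    fun x hx => (h x hx).1.p, fun i x hx => (h x hx).1.ρ i,
    fun i x hx => (h x hx).2.elim (fun e => congrArg₂ (· + ·) (Gm56.cn_lit (m := c₁.m.re) (m' := c.m.re)
      (Pj41.fRel_of_iso iso) (fun y hy => (h y hy).1.p.symm) (fun a y hy => ((h y hy).1.ρ a).symm) hx i).symm
      (congrArg₂ (· • ·) (e i) (congrArg _ (h x hx).1.p))) fun e => e i,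
    fun x hx => (h x hx).1.ms, fun x hx => (h x hx).1.om⟩

theorem pl_core {g : PD X₁ X} {x : X₁.M} (hx : x ∈ g.source) (pos : Orx52.Pos X₁.I X.I g g.source X₁.o X.o)
    {l : X₁.M → X.M} (ev : l =ᶠ[𝓝 x] g) (fe : ∀ a, mfderiv X₁.I X.I g x (β₁.e t₁ a x) = β.e t a (g x))
    (le : c.m.p (g x) = c₁.m.p x ∧ c.m.r (g x) = c₁.m.r x)
    (fo : Dr59.pm X₁.I X.I g (c.fo t) x = c₁.fo t₁ x) (mc : c.mc t (g x) = c₁.mc t₁ x)
    (ms : c.ms (β.v t) (g x) = c₁.ms (β₁.v t₁) x) : PL (c₁.P t₁).bg (c.P t).bg l x := by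
  have e0 := ev.self_of_nhds
  have hP : ∀ i j, β.B.P i j (g x) = β₁.B.P i j x := fun i j => by
    show fP (β.e 0) (g x) i j = fP (β₁.e 0) x i j
    rw [← β.P t, ← β₁.P t₁, fP_rel (Rod53.ld_pd g hx) (β₁.sp t₁ x) fe]
  have ho : ∀ i j k m, β.B.o i j k m (g x) = β₁.B.o i j k m x := fun i j k m => by
    show Int54.oc (β.e 0) (Int54.volF X.o (β.e 0)) i j k m (g x) =
      Int54.oc (β₁.e 0) (Int54.volF X₁.o (β₁.e 0)) i j k m x
    rw [← β.o t, ← β₁.o t₁]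
    exact M.cf_rel X.X.dim X₁.X.dim fe (β.sp t _) (β₁.sp t₁ x) ((pos x hx).trans_eq (mul_comm _ _)) _
  refine ⟨fun a => ?_, e0 ▸ hP, e0 ▸ ho, e0 ▸ congrArg Line51.rl le.1,
    fun i => e0 ▸ congrArg Line51.rl (congrFun le.2 i), e0 ▸ congrArg₂ (· + ·) ms mc, ?_⟩
  · rw [ev.mfderiv_eq, e0]; exact fe a
  · rw [e0]
    have h1 : β.B.sd (g x) = β₁.B.sd x := by
      funext s s'; simp only [Base.sd, Base.a2, Base.st, hP, ho]
    have h2 : cmp (β.e t) (c.fo t) (g x) = cmp (β₁.e t₁) (c₁.fo t₁) x := by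
      unfold Sw87.Mo.cmp Int54.cf
      rw [← fo, Dr59.pm]
      simp only [R208.F.evA_pb]
      exact congrArg _ (funext fun s => congrArg _ (funext fun i => (fe _).symm))
    show idx (β.B.sd (g x)) _ (cmp (β.e t) (c.fo t) (g x)) = idx (β₁.B.sd x) _ (cmp (β₁.e t₁) (c₁.fo t₁) x)
    rw [h1, h2]

end Crest.Agent.X212.Lr83
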