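import Crest.Agent.X212.Lr83.Lit

/-!
# Row 212, GEO engine, E-WL (helper83), part 2: one side of a wall
-/

set_option autoImplicit false
set_option linter.unusedSectionVars false
noncomputable section
open scoped Manifold ContDiff Topology
open Set Function Filter

namespace Crest.Agent.X212.Lr83
open An Cyf70 Sw Flo2 Geo28 Met55 Sw87.Mo Pen22
open M (Mf pm)
open Nd18 (Jv)

/-- the shift of the neck -/
def dl (s : Bool) (v : ℝ) : ℝ := if s then 0 else len v + 2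

/-- the shift of the chart -/
def d4 (s : Bool) : ℝ := if s then 0 else 4

theorem map0 (o : Option ℝ) : o = o.map (· + 0) := by simp

section time
variable {o : Option Bool} {s : Bool} {d v σ : ℝ}

theorem jv_none : σ ∈ Jv (pa none) (qa v none) ↔ 1 < σ ∧ σ < len v + 1 := by simp [Jv, pa, qa]

theorem jv_dl : σ + dl s v ∈ Jv (pa none) (qa v none) ↔ 1 < pm s * σ ∧ pm s * σ < len v + 1 := by
  rw [jv_none]
  cases s <;> simp only [dl, pm, if_true, Bool.false_eq_true, if_false] <;> constructor <;> rintro ⟨a, b⟩ <;>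
    constructor <;> linarith

theorem jk_d4 (h : pm s * σ ∈ Ioo (0 : ℝ) 4) : σ + d4 s ∈ Jk none := by
  obtain ⟨a, b⟩ := h
  cases s <;> simp only [d4, pm, if_true, Bool.false_eq_true, if_false] at * <;> constructor <;> linarith

variable (hs : o = some s)
include hs

theorem jk_of : σ ∈ Jk o ↔ 0 < pm s * σ := by subst hs; cases s <;> simp [Jk, pm]

theorem jm_of : σ ∈ Jm o d ↔ 1 - d < pm s * σ := by
  subst hs; cases s
  · rw [jm_in, pm]; constructor <;> intro h <;> simp at h ⊢ <;> linarith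
  · rw [jm_out, pm]; simp

theorem jv_of : σ ∈ Jv (pa o) (qa v o) ↔ 1 < pm s * σ := by
  subst hs; cases s <;> simp [Jv, pa, qa, pm, lt_neg]

theorem cu_eq (h : pm s * σ < 3 / 2) : cu none (σ + d4 s) = cu o σ := by
  subst hs
  cases s <;> simp only [d4, pm, if_true, Bool.false_eq_true, if_false, cu, pa, qa, Option.elim,
    len_lo (le_refl (2 : ℝ))] at *
  · rw [show sT (4 * (σ + 4 - 1) + 1) = 1 from Real.smoothTransition.one_of_one_le (by linarith)]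
    congr 2; ring
  · rw [show sT (4 * (2 + 1 - (σ + 0)) + 1) = 1 from Real.smoothTransition.one_of_one_le (by linarith), add_zero]

end time

variable {κ : Type} [Fintype κ] [DecidableEq κ] {μ : Type} [Fintype μ] [DecidableEq μ]
  {X X₁ : M4} {k k₁ : ℕ} {τ : MT κ X} {τ₁ : MT κ X₁} {β : MB τ k} {β₁ : MB τ₁ k₁}
  {W : Type} [AddCommGroup W] [Module ℝ W]

theorem nk_ng {c : MC μ β} {t : Tk k} {v : τ.N → ℝ} {n : ℕ} {ct : Fin n → Cut X.M κ (μ ⊕ μ)} {i : τ.N}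
    {K : Nk (c.ty i).en (c.pz t v ct).bg} (hK : K ∈ (c.pz t v ct).nk i) : K.ng = (τ.nb i).ng (v i) := by
  simp only [MC.pz] at hK
  split_ifs at hK with h
  exacts [Option.some.inj hK ▸ h.2.choose_spec, nomatch hK]

theorem nk_off (c : MC μ β) (t : Tk k) {v : τ.N → ℝ} {n : ℕ} (ct : Fin n → Cut X.M κ (μ ⊕ μ)) {i : τ.N}
    (h : ¬3 / 2 < v i) : (c.pz t v ct).Off i := fun K hK => by
  simp only [MC.pz] at hK
  split_ifs at hK with h'
  exacts [absurd h'.1 h, nomatch hK]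

section cast
variable {b : NB κ X} {e : ET κ} {s : Option Bool} {n' : Nc e.A X (Jk s)} (hb : b = ⟨e, s, n'⟩)
  {ec : EC (μ ⊕ μ) b.e.eg} {cl : ec.L} {ec₁ : EC (μ ⊕ μ) e.eg} {cl₁ : ec₁.L}
  (hT : (⟨⟨b.e.eg, ec⟩, cl⟩ : Ty κ L0 (μ ⊕ μ)) = ⟨⟨e.eg, ec₁⟩, cl₁⟩)
include hb

theorem cast_nk {n : ℕ} {bg : Bg X.I X.M κ L0 (μ ⊕ μ) n} {K : Nk (X := X.X) (Ty.en ⟨⟨b.e.eg, ec⟩, cl⟩) bg} {v : ℝ}
    (hK : K.ng = b.ng v) :
    (hT ▸ K : Nk (X := X.X) (Ty.en ⟨⟨e.eg, ec₁⟩, cl₁⟩) bg).ng = (⟨e, s, n'⟩ : NB κ X).ng v := by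
  subst hb; cases hT; exact hK

include hT in
theorem cast_ext (F : ∀ T : Ty κ L0 (μ ⊕ μ), T.en.Y.M → W) :
    b.ext (F ⟨⟨b.e.eg, ec⟩, cl⟩) = (⟨e, s, n'⟩ : NB κ X).ext (F ⟨⟨e.eg, ec₁⟩, cl₁⟩) := by
  subst hb; cases hT; rfl

end cast

theorem ex_k (b : NB κ X) {d : ℝ} (hd : d ≤ 1) {x : X.M} (hx : x ∈ b.U d) : ∃ y, b.k (y, b.n.tm x) = x :=
  exists_k b.n (jm_sub _ hd hx)

theorem cor_ex {b : NB κ X₁} {b' : NB κ X} {φ : X₁.M → X.M} (h : b.Cor b' φ) {x' : X.M}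
    (hx : x' ∈ b'.U (1 / 4)) : ∃ x ∈ b.U (1 / 4), x' = φ x := by
  obtain ⟨n', rfl, h⟩ := h
  obtain ⟨y, hy⟩ := ex_k _ (by norm_num) hx
  exact ⟨b.k (y, _), NB.k_mem (by norm_num) ⟨trivial, hx⟩, hy.symm.trans (h y _ (jm_mono _ (by norm_num) hx))⟩

theorem cor_ext {b : NB κ X₁} {n' : Nc b.e.A X (Jk b.s)} {g : PD X₁ X}
    (h : ∀ y, ∀ σ ∈ Jm b.s (1 / 2), n'.k (y, σ) = g (b.n.k (y, σ))) (hU : b.U (1 / 4) ⊆ g.source) {x : X₁.M}
    (hx : x ∈ g.source) (F : b.e.A.Y.M → W) : (⟨b.e, b.s, n'⟩ : NB κ X).ext F (g x) = b.ext F x := by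
  by_cases m : x ∈ b.U (1 / 4)
  · obtain ⟨y, hy⟩ := ex_k b (by norm_num) m
    have q : b.n.tm x ∈ Jk b.s := jm_sub _ (by norm_num) m
    rw [← hy, NB.ext_k F (b.src.ge ⟨trivial, q⟩)]
    exact (congrArg _ (h y _ (jm_mono _ (by norm_num) m)).symm).trans
      (NB.ext_k (b := ⟨b.e, b.s, n'⟩) F (n'.src.ge ⟨trivial, q⟩))
  · rw [NB.ext_zero F m, NB.ext_zero (b := ⟨b.e, b.s, n'⟩) F fun m' => ?_]
    obtain ⟨x', h1, h2⟩ := cor_ex ⟨n', rfl, h⟩ m'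
    exact m (g.injOn hx (hU h1) h2 ▸ h1)

theorem ψ_two (b : NB κ X) (x : b.e.A.Y.M × ℝ) : b.ψ 2 x = b.k x := by
  rw [NB.ψ_apply, ← st_two le_rfl x.2, symm_st]

/-- the end `b₁` is embedded on the side `s` of the band `b` -/
structure Sb (b₁ : NB κ X₁) (b : NB κ X) (s : Bool) (g : PD X₁ X) (n' : Nc b₁.e.A X (Jk none))
    (l : ℝ → OpenPartialHomeomorph X₁.M X.M) : Prop where
  hs : b₁.s = some s
  hb : b = ⟨b₁.e, none, n'⟩
  gs : ∀ x, pm s * b₁.n.tm x < 4 → x ∈ g.source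
  ol : ∀ y σ, pm s * σ ∈ Ioo (0 : ℝ) 4 → g (b₁.k (y, σ)) = n'.k (y, σ + d4 s)
  lo : ∀ x, pm s * b₁.n.tm x ≤ 3 / 4 → n'.tm (g x) ∉ Jm none (1 / 4)
  pos : Orx52.Pos X₁.I X.I g g.source X₁.o X.o
  ls : ∀ v, (l v).source = {x | pm s * b₁.n.tm x < len v + 1}
  l0 : ∀ v x, pm s * b₁.n.tm x ≤ 3 / 2 → l v x = g x
  sm : ∀ v, ContMDiffOn X₁.I X.I ∞ (l v) (l v).source ∧ ContMDiffOn X.I X₁.I ∞ (l v).symm (l v).target
  hl : ∀ v y σ, 1 < pm s * σ → pm s * σ < len v + 1 → l v (b₁.k (y, σ)) = n'.k (y, (stH v).symm (σ + dl s v))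

theorem Sb.ext {b₁ : NB κ X₁} {b : NB κ X} {s : Bool} {g : PD X₁ X} {n' : Nc b₁.e.A X (Jk none)}
    {l : ℝ → OpenPartialHomeomorph X₁.M X.M} (S : Sb b₁ b s g n' l) {x : X₁.M} (hx : pm s * b₁.n.tm x < 3 / 2)
    (F : b₁.e.A.Y.M → W) : (⟨b₁.e, none, n'⟩ : NB κ X).ext F (g x) = b₁.ext F x := by
  by_cases m : pm s * b₁.n.tm x ≤ 3 / 4
  · rw [NB.ext_zero (b := ⟨b₁.e, none, n'⟩) F (S.lo x m),
      NB.ext_zero F fun h => by linarith [(jm_of S.hs).1 h]]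
  · have q : pm s * b₁.n.tm x ∈ Ioo (0 : ℝ) 4 := ⟨by linarith, by linarith⟩
    obtain ⟨y, hy⟩ := exists_k b₁.n ((jk_of S.hs).2 q.1)
    refine ((congrArg _ ((congrArg g hy).symm.trans (S.ol y _ q))).trans
      (NB.ext_k (b := ⟨b₁.e, none, n'⟩) F (n'.src.ge ⟨trivial, jk_d4 q⟩))).trans ?_
    have e := NB.ext_k F (x := (y, b₁.n.tm x)) (b₁.src.ge ⟨trivial, (jk_of S.hs).2 q.1⟩)
    exact (congrArg (· • F y) (cu_eq S.hs hx)).trans (e.symm.trans (congrArg _ hy))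

theorem hlf (hP : PzStmt κ μ) (c : MC μ β) (c₁ : MC μ β₁) {t : Tk k} {t₁ : Tk k₁} {i : τ.N} {j : τ₁.N} {s : Bool}
    {g : PD X₁ X} {n' : Nc (τ₁.nb j).e.A X (Jk none)} {l : ℝ → OpenPartialHomeomorph X₁.M X.M}
    (S : Sb (τ₁.nb j) (τ.nb i) s g n' l) {r : τ₁.N → τ.N → Prop} {ι : Fin τ₁.nc → Fin τ.nc} {v : ℝ} (h3 : 3 ≤ v)
    (hc : ∀ j' i', r j' i' → j' ≠ j ∧ i' ≠ i ∧ (τ₁.nb j').Cor (τ.nb i') g)
    (inj : ∀ i i' j j', r i i' → r j j' → (i = j ↔ i' = j'))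
    (oth : ∀ i' ≠ i, (∀ j', ¬r j' i') → ∀ x ∈ g.source, g x ∉ (τ.nb i').U (1 / 4))
    (bx : ∀ a y, τ.bx (ι a) y = g (τ₁.bx a y)) (hv : β.v t i = v)
    (hr : ∀ j' i', r j' i' → β.v t i' = β₁.v t₁ j' ∧ c₁.ty j' = c.ty i')
    (hz : ∀ j', j' = j ∨ β₁.v t₁ j' = 0 ∨ ∃ i', r j' i') (hT : c₁.ty j = c.ty i)
    (co : ∀ x, pm s * (τ₁.nb j).n.tm x < 3 / 2 → (∀ a, mfderiv X₁.I X.I g x (β₁.e t₁ a x) = β.e t a (g x)) ∧
      (c.m.p (g x) = c₁.m.p x ∧ c.m.r (g x) = c₁.m.r x) ∧ Dr59.pm X₁.I X.I g (c.fo t) x = c₁.fo t₁ x ∧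
      c.mc t (g x) = c₁.mc t₁ x) (η : ∀ a, c.η t (ι a) = c₁.η t₁ a) :
    Hlf (en := Ty.en) (ty := c.ty) (ty₁ := c₁.ty) (c.P t) i (c₁.P t₁) j s (l v) (dl s v) r ι := by
  have v2 : β₁.v t₁ j = 2 := if_neg (by rw [S.hs]; simp)
  have ln := len_ge v
  have ct : Continuous fun x => pm s * (τ₁.nb j).n.tm x := continuous_const.mul (τ₁.nb j).n.cont
  have off : ∀ x ∉ (τ₁.nb j).k.target, pm s * (τ₁.nb j).n.tm x ≤ 0 := fun x hx =>
    not_lt.1 fun h => hx ((τ₁.nb j).tgt.ge ((jk_of S.hs).2 h))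
  have off' : ∀ j' ≠ j, ∀ x ∈ (τ₁.nb j').k.target, pm s * (τ₁.nb j).n.tm x ≤ 0 := fun j' n x hx =>
    off x (disjoint_left.1 (τ₁.dj n) hx)
  have src : ∀ x, pm s * (τ₁.nb j).n.tm x ≤ 0 → x ∈ (l v).source ∧ l v x = g x := fun x hx =>
    ⟨(S.ls v).ge (hx.trans_lt (by linarith)), S.l0 v x (by linarith)⟩
  obtain ⟨K, hK, gK⟩ := hP.nk c t (c.ct t) i (by linarith)
  obtain ⟨K₁, hK₁, gK₁⟩ := hP.nk c₁ t₁ (c₁.ct t₁) j (by linarith)
  rw [hv] at gK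
  rw [v2] at gK₁
  have gK' := cast_nk S.hb hT.symm gK
  have j1 : K₁.J = Jv (pa (τ₁.nb j).s) (qa 2 (τ₁.nb j).s) :=
    congrArg₂ Jv (congrArg (·.1) gK₁) (congrArg (·.2.1) gK₁)
  have p0 : K.p = pa none := (congrArg (·.1) gK).trans (congrArg (pa ·.s) S.hb)
  have q0 : K.q = qa v none := (congrArg (·.2.1) gK).trans (congrArg (qa v ·.s) S.hb)
  have j0 : K.J = Jv (pa none) (qa v none) := congrArg₂ Jv p0 q0
  have ψ1 : ∀ z, K₁.ψ z = (τ₁.nb j).k z := fun z => (congrArg (·.2.2.1 z) gK₁).trans (ψ_two _ z)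
  have nk : ∀ y σ, 1 < pm s * σ → pm s * σ < len v + 1 →
      l v (K₁.ψ (y, σ)) = (hT.symm ▸ K : Nk (c₁.ty j).en (c.P t).bg).ψ (y, σ + dl s v) := fun y σ a b =>
    (congrArg (l v) (ψ1 _)).trans ((S.hl v y σ a b).trans (congrArg (·.2.2.1 (y, σ + dl s v)) gK').symm)
  refine ⟨lit_of c c₁ (S.sm v).1 (S.sm v).2 fun x hx => ?_, ⟨hT.symm, K, hK, K₁, hK₁, ?_, ?_, ?_,
    fun y σ a b => nk y σ (jv_dl.1 (j0 ▸ b)).1 (jv_dl.1 (j0 ▸ b)).2⟩, fun j' i' h => ⟨(hc j' i' h).1,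
      (hc j' i' h).2.1, ?_⟩, inj, fun j' => (hz j').imp_right (Or.imp_left fun h => nk_off c₁ t₁ _ (by
        rw [h]; norm_num)), fun a => ⟨fun x hx => ?_, fun y => (bx a y).trans
          (src _ (off _ (τ₁.off a y j))).2.symm, rfl, η a⟩⟩
  · by_cases h : pm s * (τ₁.nb j).n.tm x < 3 / 2
    · obtain ⟨a1, a2, a3, a4⟩ := co x h
      have m := S.gs x (by linarith)
      suffices k : ∀ {W : Type} [AddCommGroup W] [Module ℝ W] (F : ∀ T : Ty κ L0 (μ ⊕ μ), T.en.Y.M → W),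
          ∑ i, wt (β.v t i) • (τ.nb i).ext (F (c.ty i)) (g x) =
            ∑ j, wt (β₁.v t₁ j) • (τ₁.nb j).ext (F (c₁.ty j)) x from
        ⟨pl_core c c₁ m S.pos (eventually_of_mem ((isOpen_lt ct continuous_const).mem_nhds h)
          fun y hy => S.l0 v y hy.out.le) a1 a2 a3 a4 (k fun T y => T.en.cyl.ms (y, 0)),
          .inl fun a => S.l0 v x h.le ▸ k fun T y => a.elim 0 fun b => tw T b y⟩
      refine fun F => sum_rel (fun j' i' => (j' = j ∧ i' = i) ∨ r j' i')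
          (fun a a' b b' h1 h2 => ?_) (fun j' i' h' => ?_) (fun i' h' => ?_) fun j' h' => ?_
      · rcases h1 with ⟨rfl, rfl⟩ | h1 <;> rcases h2 with ⟨rfl, rfl⟩ | h2
        exacts [by simp, iff_of_false (hc _ _ h2).1.symm (hc _ _ h2).2.1.symm,
          iff_of_false (hc _ _ h1).1 (hc _ _ h1).2.1, inj _ _ _ _ h1 h2]
      · rcases h' with ⟨rfl, rfl⟩ | h'
        · rw [hv, v2, wt_hi (by linarith), wt_hi (by norm_num), cast_ext S.hb hT.symm F, S.ext h]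
        · obtain ⟨n, -, n'', hb, e⟩ := hc _ _ h'
          rw [(hr _ _ h').1, cast_ext hb (hr _ _ h').2.symm F, cor_ext e (fun y hy => S.gs y
            ((off' j' n y ((τ₁.nb j').U_sub (by norm_num) hy)).trans_lt four_pos)) m]
      · rw [NB.ext_zero _ (oth i' (fun e => h' j (.inl ⟨rfl, e⟩)) (fun j' e => h' j' (.inr e)) x m), smul_zero]
      · rw [((hz j').resolve_left fun e => h' i (.inl ⟨e, rfl⟩)).resolve_right fun ⟨i', e⟩ => h' i' (.inr e),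
          wt_lo zero_le_one, zero_smul]
    · have a : 1 < pm s * (τ₁.nb j).n.tm x := by linarith
      have b : pm s * (τ₁.nb j).n.tm x < len v + 1 := (S.ls v).le hx
      obtain ⟨y, hy⟩ := exists_k (τ₁.nb j).n ((jk_of S.hs).2 (one_pos.trans a))
      replace hy := (ψ1 _).trans hy
      have cz : Continuous fun z : (τ₁.nb j).e.A.Y.M × ℝ => pm s * z.2 := continuous_const.mul continuous_snd
      refine And.imp_right Or.inr <| hy ▸ pl_nk K₁ (hT.symm ▸ K : Nk (c₁.ty j).en (c.P t).bg) (δ := dl s v)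
        (K₁.src.ge ⟨trivial, j1.ge ((jv_of S.hs).2 a)⟩) ?_ (hy.symm ▸
          ((S.sm v).1.contMDiffAt ((l v).open_source.mem_nhds hx)).mdifferentiableAt (by simp))
        (((isOpen_lt continuous_const cz).inter (isOpen_lt cz continuous_const)).eventually_mem ⟨a, b⟩
          |>.mono fun w hw => nk w.1 w.2 hw.1 hw.2)
      have sr := (congrArg (·.2.2.1.source) gK').trans (NB.ψ_src v)
      exact (Set.ext_iff.1 sr _).2 ⟨trivial, jv_dl.2 ⟨a, b⟩⟩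
  · cases s
    exacts [(congrArg (·.1) gK₁).trans (congrArg pa S.hs), (congrArg (·.2.1) gK₁).trans (congrArg (qa 2) S.hs)]
  · cases s
    · refine q0.trans (Eq.trans ?_ (congrArg (Option.map _) ((congrArg (·.2.1) gK₁).trans
        (congrArg (qa 2) S.hs))).symm)
      exact congrArg some (by simp [dl]; ring)
    · refine p0.trans (Eq.trans ?_ (congrArg (Option.map _) ((congrArg (·.1) gK₁).trans (congrArg pa S.hs))).symm)
      exact congrArg some (by simp [dl])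
  · rw [S.ls, j1, j0]
    ext x
    refine ⟨?_, fun h => lt_of_not_ge (a := pm s * (τ₁.nb j).n.tm x) fun m => ?_⟩
    · rintro h ⟨z, ⟨-, a, b⟩, rfl⟩
      replace a := (jv_of S.hs).1 a
      refine b (jv_dl.2 ⟨a, ?_⟩)
      have := h.out
      rwa [ψ1, NB.tm_k ((τ₁.nb j).src.ge ⟨trivial, (jk_of S.hs).2 (one_pos.trans a)⟩)] at this
    · obtain ⟨y, hy⟩ := exists_k (τ₁.nb j).n ((jk_of S.hs).2 (show 0 < pm s * (τ₁.nb j).n.tm x by linarith))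
      exact h ⟨(y, _), ⟨trivial, (jv_of S.hs).2 (by linarith), fun b => (jv_dl.1 b).2.not_ge m⟩, (ψ1 _).trans hy⟩
  · obtain ⟨n, -, n'', hb, e⟩ := hc _ _ h
    by_cases w : 3 / 2 < β₁.v t₁ j'
    · obtain ⟨L, hL, gL⟩ := hP.nk c t (c.ct t) i' ((hr _ _ h).1 ▸ w)
      obtain ⟨L₁, hL₁, gL₁⟩ := hP.nk c₁ t₁ (c₁.ct t₁) j' w
      rw [(hr _ _ h).1] at gL
      have gL' := cast_nk hb (hr _ _ h).2.symm gL
      refine .inr ⟨(hr _ _ h).2.symm, L₁, hL₁, L, hL, ?_, ?_, fun x hx => ?_⟩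
      · exact ((congrArg (·.1) gL').trans (congrArg (·.1) gL₁).symm).trans (map0 _)
      · exact ((congrArg (·.2.1) gL').trans (congrArg (·.2.1) gL₁).symm).trans (map0 _)
      · have sr := (congrArg (·.2.2.1.source) gL₁).trans (NB.ψ_src _)
        have m := NB.cy_mem (sr.subset hx).2
        have q := src _ (off' j' n _ ((τ₁.nb j').k.map_source ((τ₁.nb j').V_sub zero_le_one m)))
        have u : L₁.ψ x = _ := congrArg (·.2.2.1 x) gL₁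
        rw [u, add_zero]
        exact ⟨q.1, (congrArg (·.2.2.1 x) gL').trans ((e _ _ (jm_mono _ (by norm_num) m.2)).trans q.2.symm)⟩
    · exact .inl ⟨nk_off c₁ t₁ _ w, nk_off c t _ ((hr _ _ h).1 ▸ w)⟩
  · exact (src x (off x ((τ₁.bx a).right_inv hx ▸ τ₁.off a _ j))).1

end Crest.Agent.X212.Lr83
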