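import Crest.Agent.X212.Lr83.Hlf

/-!
# Row 212, GEO engine, E-WL (helper83), part 3: walls
-/

set_option autoImplicit false
set_option linter.unusedSectionVars false
noncomputable section
open scoped Manifold ContDiff Topology
open Set Function Filter

namespace Crest.Agent.X212.Lr83
open An Cyf70 Sw Flo2 Geo28 Met55 Sw87.Mo Pen22
open M (Mf pm)
open Nd18 (Jv)

theorem pt (x : ℝ) : pm true * x = x := one_mul x

theorem pf (x : ℝ) : pm false * x = -x := neg_one_mul x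

theorem rel_ex {A B : Type} {r : A → B → Prop} {o : Option A} {o' : Option B} (h : Option.Rel r o o') {a : A}
    (e : o = some a) : ∃ b, r a b := by subst e; cases h; exact ⟨_, ‹_›⟩

variable {κ : Type} [Fintype κ] [DecidableEq κ] {μ : Type} [Fintype μ] [DecidableEq μ]
  {X X₁ X₂ : M4} {k k₁ : ℕ} {τ : MT κ X} {τ₁ : MT κ X₁} {τ₂ : MT κ X₂} {β : MB τ k} {β₁ : MB τ₁ k₁}

section sw
variable {ι : Fin k₁ → Fin k} {r : τ₁.N → τ.N → Prop}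
  (w : ∀ c', (β₁.wl c' = none ∧ β.wl (ι c') = none) ∨ ∃ j ∈ β₁.wl c', ∃ i' ∈ β.wl (ι c'), r j i')
include w

theorem sw_eq (hι : Injective ι) (inj : ∀ i i' j j', r i i' → r j j' → (i = j ↔ i' = j')) {j : τ₁.N} {i : τ.N}
    (h : r j i) {φ : X₁.M → X.M} (hc : (τ₁.nb j).Cor (τ.nb i) φ) (ho : ∀ c, (∀ c', ι c' ≠ c) → β.wl c ≠ some i)
    (t : Tk k) : β.v t i = β₁.v (t ∘ ι) j := by
  obtain ⟨n', hb, -⟩ := hc
  unfold MB.v MT.sw
  rw [show (τ.nb i).s = (τ₁.nb j).s from congrArg (·.s) hb]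
  congr 1
  refine sum_rel (fun c' c => ι c' = c) (by rintro _ _ _ _ rfl rfl; exact hι.eq_iff.symm) ?_
    (fun c e => if_neg (ho c e)) fun c' e => (e _ rfl).elim
  rintro c' _ rfl
  refine if_congr ?_ rfl rfl
  rcases w c' with ⟨a, b⟩ | ⟨j', a, i', b, e⟩
  · simp [a, b]
  · rw [show _ = _ from a, show _ = _ from b, Option.some_inj, Option.some_inj, inj _ _ _ _ e h]

theorem sw_zero {j₁ : τ₁.N} (p : ∀ j s, (τ₁.nb j).s = some s → j = j₁ ∨ ∃ i, r j i) (t : Tk k₁) (j : τ₁.N) :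
    j = j₁ ∨ β₁.v t j = 0 ∨ ∃ i, r j i := by
  rcases e : (τ₁.nb j).s with _ | s
  · refine .inr (or_iff_not_imp_right.2 fun n => (if_pos e).trans (Finset.sum_eq_zero fun c _ => if_neg fun a => ?_))
    rcases w c with ⟨b, -⟩ | ⟨j', b, i', -, h⟩
    · exact nomatch a.symm.trans b
    · exact n ⟨i', Option.some.inj (a.symm.trans b) ▸ h⟩
  · exact (p j s e).imp_right .inr

end sw

theorem Sb.deep {c : MC μ β₁} {j : τ₁.N} {b : NB κ X} {s : Bool} {g : PD X₁ X} {n' : Nc (τ₁.nb j).e.A X (Jk none)}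
    {l : ℝ → OpenPartialHomeomorph X₁.M X.M} (S : Sb (τ₁.nb j) b s g n' l) :
    ∀ K ∈ (c.pz 0 (β₁.v 0) (n := 0) Fin.elim0).nk j, ∀ x ∉ K.ψ '' (univ ×ˢ K.deep (1 / 2)), ∀ v ≥ 3,
      l v x = l 3 x := fun K hK x hx v _ => by
  have gK := nk_ng hK
  rw [show β₁.v 0 j = 2 from if_neg (by rw [S.hs]; simp)] at gK
  have h : pm s * (τ₁.nb j).n.tm x ≤ 3 / 2 := le_of_not_gt fun h => by
    obtain ⟨y, hy⟩ := exists_k (τ₁.nb j).n ((jk_of S.hs).2 (show 0 < pm s * (τ₁.nb j).n.tm x by linarith))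
    refine hx ⟨(y, (τ₁.nb j).n.tm x), ⟨trivial, ?_⟩,
      ((congrArg (·.2.2.1 (y, (τ₁.nb j).n.tm x)) gK).trans (ψ_two _ _)).trans hy⟩
    rw [Nk.deep, show K.p = _ from (congrArg (·.1) gK).trans (congrArg pa S.hs),
      show K.q = _ from (congrArg (·.2.1) gK).trans (congrArg (qa 2) S.hs)]
    cases s <;> simp only [pt, pf] at h <;> simp [Jv, pa, qa] <;> linarith
  rw [S.l0 v x h, S.l0 3 x h]

variable (γ : TG τ τ₁ τ₂) (Λ : γ.LR)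

theorem sb_l : ∃ n', Sb (τ₁.nb γ.j₁) (τ.nb γ.i) true γ.g.l n' Λ.l := by
  have a := Λ.le
  simp only [cp_l] at a
  rw [γ.h₁, γ.h]
  refine ⟨γ.g.n, rfl, rfl, fun x h => (mem_l γ.g).2 ((pt _).symm.trans_lt h), fun y σ h => ?_, fun x h m => ?_, γ.g.pl,
    fun v => by simp only [Λ.ls, pt]; rfl, fun v x h => Λ.l0 v x ((pt _).symm.trans_le h), Λ.sl, fun v y σ h1 h2 => ?_⟩
  · exact (γ.g.ol y σ (pt σ ▸ h)).trans (by rw [d4, if_pos rfl, add_zero])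
  · linarith [(jm_none.1 m).1, l_le γ.g (r := 3 / 4) (by norm_num) (by norm_num) ((pt _).symm.trans_le h)]
  · rw [pt] at h1 h2
    have m : σ ∈ Ioi (0 : ℝ) := one_pos.trans h1
    refine (a v _ ((Λ.ls v).ge ((tm_k γ.k₁ y m).trans_lt h2))).trans ((congrArg _ (cpf_k γ.k₁ _ y m)).trans ?_)
    rw [dl, if_pos rfl, add_zero]
    exact γ.g.ol y _ ⟨one_pos.trans ((lt_symm v σ).2 h1), ((symm_lt v σ).2 h2).trans (by norm_num)⟩

theorem sb_r : ∃ n', Sb (τ₂.nb γ.j₂) (τ.nb γ.i) false γ.g.r n' Λ.r := by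
  have a := Λ.re
  simp only [cp_r] at a
  rw [γ.h₂, γ.h]
  refine ⟨γ.g.n, rfl, rfl, fun x h => (mem_r γ.g).2 (neg_lt.1 (pf _ ▸ h)), fun y σ h => ?_, fun x h m => ?_, γ.g.pr,
    fun v => by simp only [Λ.rs, pf, neg_lt (b := len v + 1)]; rfl,
    fun v x h => Λ.r0 v x (neg_le.1 (pf _ ▸ h)), Λ.sr, fun v y σ h1 h2 => ?_⟩
  · rw [pf] at h
    have := γ.g.or y (σ + 4) ⟨by linarith [h.2], by linarith [h.1]⟩
    rwa [add_sub_cancel_right] at this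
  · linarith [(jm_none.1 m).2, r_ge γ.g (by norm_num) (by norm_num) (neg_le.1 (pf _ ▸ h) : -(3 / 4) ≤ γ.k₂.tm x)]
  · rw [pf] at h1 h2
    have m : σ ∈ Iio (0 : ℝ) := show σ < 0 by linarith
    refine (a v _ ((Λ.rs v).ge ((neg_lt.1 h2).trans_eq (tm_k γ.k₂ y m).symm))).trans
      ((congrArg _ (cpf_k γ.k₂ _ y m)).trans ?_)
    rw [fR_apply, add_assoc]
    exact γ.g.or y _ ⟨one_pos.trans ((lt_symm v _).2 (by linarith)),
      ((symm_lt v _).2 (by linarith)).trans (by norm_num)⟩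

theorem oth_l (i' : τ.N) (n : i' ≠ γ.i) (h : ∀ j', ¬γ.r₁ j' i') : ∀ x ∈ γ.g.l.source, γ.g.l x ∉ (τ.nb i').U (1 / 4) :=
  fun x hx m => by
    obtain ⟨j, e⟩ := ((γ.sur i').resolve_left n).resolve_left (not_exists.2 h)
    obtain ⟨x', a, b⟩ := cor_ex (γ.c₂ _ _ e).2.2 m
    have q := disjoint_left.1 (τ₂.dj (γ.c₂ _ _ e).1) ((τ₂.nb j).U_sub (by norm_num) a)
    rw [γ.h₂] at q
    have := r_ge γ.g le_rfl four_pos (p := x') (neg_zero.trans_le (not_lt.1 fun h => q (γ.k₂.tgt.ge h)))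
    linarith [b ▸ (mem_lt γ.g).1 (γ.g.l.map_source hx)]

theorem oth_r (i' : τ.N) (n : i' ≠ γ.i) (h : ∀ j', ¬γ.r₂ j' i') : ∀ x ∈ γ.g.r.source, γ.g.r x ∉ (τ.nb i').U (1 / 4) :=
  fun x hx m => by
    obtain ⟨j, e⟩ := ((γ.sur i').resolve_left n).resolve_right (not_exists.2 h)
    obtain ⟨x', a, b⟩ := cor_ex (γ.c₁ _ _ e).2.2 m
    have q := disjoint_left.1 (τ₁.dj (γ.c₁ _ _ e).1) ((τ₁.nb j).U_sub (by norm_num) a)
    rw [γ.h₁] at q
    have := l_le γ.g le_rfl four_pos (p := x') (not_lt.1 fun h => q (γ.k₁.tgt.ge h))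
    linarith [b ▸ (mem_rt γ.g).1 (γ.g.r.map_source hx)]

theorem pin₂ : τ₂.pin = some γ.j₂ := (τ₂.inn _).1 (congrArg (·.s) γ.h₂)

theorem port₁ (j : τ₁.N) (s : Bool) (e : (τ₁.nb j).s = some s) : j = γ.j₁ ∨ ∃ i, γ.r₁ j i := by
  cases s
  · exact .inr (rel_ex γ.pin ((τ₁.inn j).1 e))
  have p := γ.port
  rcases (τ₁.out j).1 e with h | h <;> cases hc : γ.cap <;> simp only [hc, cond] at p
  exacts [.inl (Option.some.inj (h.symm.trans p.1)), .inr (rel_ex p.2.1 h), (nomatch h.symm.trans p.2.2),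
    .inl (Option.some.inj (h.symm.trans p.1))]

theorem port₂ (j : τ₂.N) (s : Bool) (e : (τ₂.nb j).s = some s) : j = γ.j₂ ∨ ∃ i, γ.r₂ j i := by
  cases s
  · exact .inl (Option.some.inj (((τ₂.inn j).1 e).symm.trans (pin₂ γ)))
  have p := γ.port
  rcases (τ₂.out j).1 e with h | h
  · cases hc : γ.cap <;> simp only [hc, cond] at p
    exacts [.inr (rel_ex p.2.1 h), nomatch h.symm.trans p.2.2]
  · exact nomatch h.symm.trans γ.p3.1

/-- **E-WL** -/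
theorem walStmt (hP : PzStmt κ μ) : WalStmt κ μ := by
  intro X X₁ X₂ τ τ₁ τ₂ γ Λ k k₁ k₂ β β₁ β₂ a ι₁ ι₂ c c₁ c₂ B G H hq ens ens₁ ens₂ C C₁ C₂
  obtain ⟨n₁, S₁⟩ := sb_l γ Λ
  obtain ⟨n₂, S₂⟩ := sb_r γ Λ
  have p := γ.port
  have hs : (τ.nb γ.i).s = none := congrArg (·.s) γ.h
  have hv : ∀ t, β.v t γ.i = t a := fun t => (if_pos hs).trans
    ((Finset.sum_eq_single a (fun c _ n => if_neg fun e => n (β.inj _ _ _ e B.wl)) (by simp)).trans (if_pos B.wl))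
  have t1 : (τ₁.nb γ.j₁).n.tm = γ.k₁.tm := by rw [γ.h₁]
  have t2 : (τ₂.nb γ.j₂).n.tm = γ.k₂.tm := by rw [γ.h₂]
  refine ⟨B.bij, γ.j₁, ?_, γ.j₂, pin₂ γ, γ.r₁, γ.r₂, γ.ec, G.t₁, G.t₂, G.r₁, G.r₂, B.w₁, B.w₂, γ.pin, γ.p3.1,
    γ.p3.2, ?_, ⟨fun v => (dl true v, dl false v), fun t ht => ?_⟩, 1 / 2, one_half_pos, S₁.deep, S₂.deep⟩
  · cases hc : γ.cap <;> simp only [hc, cond] at p <;> exact p.1
  · cases hc : γ.cap <;> simp only [hc, cond] at p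
    exacts [⟨p.2.1, p.2.2, hq hc⟩, p.2]
  obtain ⟨F, D⟩ := H t ht
  refine ⟨hlf hP c c₁ S₁ ht γ.c₁ γ.inj₁ (oth_l γ) γ.b₁ (hv t) (fun j i h => ⟨sw_eq B.w₁
      (fun x y e => by simpa using B.bij.1 (a₁ := .inl (.inl x)) (a₂ := .inl (.inl y)) e) γ.inj₁ h (γ.c₁ j i h).2.2
      (fun x n e => ?_) t, G.r₁ j i h⟩) (sw_zero B.w₁ (port₁ γ) _) G.t₁ (fun x h => ?_) D.η₁,
    hlf hP c c₂ S₂ ht γ.c₂ γ.inj₂ (oth_r γ) γ.b₂ (hv t) (fun j i h => ⟨sw_eq B.w₂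
      (fun x y e => by simpa using B.bij.1 (a₁ := .inl (.inr x)) (a₂ := .inl (.inr y)) e) γ.inj₂ h (γ.c₂ j i h).2.2
      (fun x n e => ?_) t, G.r₂ j i h⟩) (sw_zero B.w₂ (port₂ γ) _) G.t₂ (fun x h => ?_) D.η₂,
    ?_, fun K hK => ?_, fun i => (γ.sur i).imp_right .inr, γ.dj⟩
  · obtain ⟨(y | y) | y, rfl⟩ := B.bij.2 x
    · exact n y rfl
    · rcases B.w₂ y with ⟨-, b⟩ | ⟨j', -, i', b, q⟩
      exacts [(nomatch e.symm.trans b), γ.dj i j j' h (Option.some.inj (e.symm.trans b) ▸ q)]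
    · exact (γ.c₁ j i h).2.1 (Option.some.inj (e.symm.trans B.wl))
  · rw [pt, t1] at h
    exact ⟨F.l x h, G.l x h, D.fo.1 x (by linarith), D.l x h⟩
  · obtain ⟨(y | y) | y, rfl⟩ := B.bij.2 x
    · rcases B.w₁ y with ⟨-, b⟩ | ⟨j', -, i', b, q⟩
      exacts [(nomatch e.symm.trans b), γ.dj i j' j (Option.some.inj (e.symm.trans b) ▸ q) h]
    · exact n y rfl
    · exact (γ.c₂ j i h).2.1 (Option.some.inj (e.symm.trans B.wl))
  · rw [pf, t2, neg_lt] at h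
    exact ⟨F.r x h, G.r x h, D.fo.2 x (by linarith), D.r x h⟩
  · rw [Λ.lt, Λ.rt, ← preimage_union, Iio_union_Ioi_of_lt (by norm_num), preimage_univ]
  · have sr := (congrArg (·.2.2.1.target) (nk_ng hK)).trans (NB.ψ_tgt _)
    rw [Λ.lt, Λ.rt, γ.h] at *
    refine Eq.trans (Set.ext fun x => ?_) sr.symm
    simp only [NB.U, mem_preimage, jm_none, mem_inter_iff, mem_Iio, mem_Ioi, sub_zero, add_zero, and_comm]

end Crest.Agent.X212.Lr83
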